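import Crest.Agent.R153.CompB.Cert
import Crest.Agent.R153.Sat

/-! The trial functional in terms of the list programs. -/

set_option autoImplicit false

namespace Crest.Agent.R153.CompB

open CompA Crest.Agent.R141 Finset
open scoped BigOperators

/-- `Ls` lists the codes of the elements of `α` -/
def Enum {α β : Type} [Fintype α] (c : α → β) (Ls : List β) : Prop :=
  ∀ f : β → ℝ, ∑ a, f (c a) = (Ls.map f).sum

section enum
variable {α β : Type} [Fintype α] {c : α → β} {Ls : List β}

theorem Enum.expect (h : Enum c Ls) (f : β → ℝ) : 𝔼 a, f (c a) = avgR Ls f := by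
  have hc : (Fintype.card α : ℝ) = Ls.length := by simpa using h fun _ => 1
  rw [Fintype.expect_eq_sum_div_card, h, hc]
  rfl

theorem Enum.surj (h : Enum c Ls) {x : β} (hx : x ∈ Ls) : ∃ a, c a = x := by
  classical
  by_contra hne
  push Not at hne
  have h1 := h fun y => if y = x then 1 else 0
  simp only [hne, if_false, sum_const_zero] at h1
  have h2 : (1 : ℝ) ≤ (Ls.map fun y => if y = x then (1 : ℝ) else 0).sum :=
    List.single_le_sum (by
      intro z hz
      obtain ⟨y, -, rfl⟩ := List.mem_map.1 hz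
      split_ifs <;> norm_num) 1 (List.mem_map.2 ⟨x, hx, by simp⟩)
  linarith

theorem Enum.mem (h : Enum c Ls) (a : α) : c a ∈ Ls := by
  classical
  by_contra hne
  have h1 := h fun y => if y = c a then 1 else 0
  have h2 : (Ls.map fun y => if y = c a then (1 : ℝ) else 0).sum = 0 :=
    List.sum_eq_zero (by
      intro z hz
      obtain ⟨y, hy, rfl⟩ := List.mem_map.1 hz
      rw [if_neg]
      rintro rfl
      exact hne hy)
  have h3 := single_le_sum (s := univ) (f := fun b => if c b = c a then (1 : ℝ) else 0)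
    (fun b _ => by split_ifs <;> norm_num) (mem_univ a)
  rw [h1, h2] at h3
  norm_num at h3

theorem Enum.ne_nil [Nonempty α] (h : Enum c Ls) : Ls ≠ [] :=
  List.ne_nil_of_mem (h.mem (Classical.arbitrary α))

theorem Enum.pi (h : Enum c Ls) (m : ℕ) :
    Enum (fun x : Fin m → α => List.ofFn fun i => c (x i)) (allL Ls m) :=
  sum_fun_allL c Ls h m

theorem Enum.equiv {α' : Type} [Fintype α'] (h : Enum c Ls) (e : α' ≃ α) :
    Enum (fun a => c (e a)) Ls := fun f => (e.sum_comp fun a => f (c a)).trans (h f)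

end enum

theorem prod_map_range (n : ℕ) (f : ℕ → ℝ) : ((List.range n).map f).prod = ∏ i : Fin n, f i := by
  induction n with
  | zero => simp
  | succ n ih => simp [List.range_succ, Fin.prod_univ_castSucc, ih]

theorem sum_map_range (n : ℕ) (f : ℕ → ℝ) : ((List.range n).map f).sum = ∑ i ∈ range n, f i := by
  induction n with
  | zero => simp
  | succ n ih => simp [List.range_succ, sum_range_succ, ih]

theorem enum_fin (n : ℕ) : Enum (fun x : Fin n => x.val) (List.range n) := fun f => by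
  rw [sum_map_range, Finset.sum_range]

theorem enum_bool : Enum (fun x : Bool => x) [false, true] := fun f => by
  simp [add_comm]

theorem enum_bits (l : ℕ) : Enum (fun x : Fin l → Bool => List.ofFn x) (bits l) := enum_bool.pi l

theorem enum_key (a n : ℕ) :
    Enum (fun x : Fin n → Fin (a + 1) => List.ofFn fun i => (x i).val) (lay a n) :=
  (enum_fin (a + 1)).pi n

theorem getD_ofFn {β : Type} {n : ℕ} (f : Fin n → β) (i : Fin n) (d : β) :
    (List.ofFn f).getD i d = f i := by
  simp [List.getD_eq_getElem?_getD]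

section
variable {L : Type} [Fintype L] [DecidableEq L] {l : ℕ} (e : Fin l ≃ L) {a r : ℕ}

/-- code of a layer -/
def cl (v : L → Fin (a + 1)) : List ℕ := List.ofFn fun i => (v (e i)).val

/-- code of an array -/
def full (u : L → Fin (r + 1) → Fin (a + 1)) : List (List ℕ) :=
  List.ofFn fun j => cl e fun ω => u ω j

theorem enum_cl : Enum (cl e (a := a)) (lay a l) :=
  (enum_key a l).equiv (e.symm.arrowCongr (Equiv.refl _))

theorem enum_full : Enum (full e (a := a) (r := r)) (allL (lay a l) (r + 1)) :=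
  ((enum_cl e).pi (r + 1)).equiv (Equiv.piComm fun _ _ => Fin (a + 1))

omit [Fintype L] [DecidableEq L] in
theorem take_full (u : L → Fin (r + 1) → Fin (a + 1)) (v : L → Fin (a + 1)) (d : Fin r) :
    (full e fun ω j => if j = d.succ then v ω else u ω j).take (d + 1 + 1) =
      (full e u).take (d + 1) ++ [cl e v] := by
  have hd := d.2
  refine List.ext_getElem (by simp [full]) fun i h1 h2 => ?_
  simp only [full, List.getElem_take, List.getElem_ofFn]
  by_cases hi : i = d + 1
  · subst hi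
    rw [List.getElem_append_right (by simp)]
    simp [Fin.ext_iff]
  · have hi' : i < d + 1 := by
      simp only [List.length_take] at h1
      omega
    rw [List.getElem_append_left (by simp; omega), List.getElem_take, List.getElem_ofFn]
    simp [Fin.ext_iff, hi]

theorem fold_eq (s : ℕ) (Wf : List (List ℕ) → ℝ) : ∀ (n d : ℕ), d + n = r →
    ∀ u : L → Fin (r + 1) → Fin (a + 1),
    ((List.finRange r).drop d).foldr (fun d acc => fpm (gridm s r d) d.succ acc)
      (fun u => Wf (full e u)) u = G (lay a l) Wf (s + r + 1) n (s + 1 + d) ((full e u).take (d + 1))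
  | 0, d, h, u => by
    rw [List.drop_of_length_le (by simp; omega), List.take_of_length_le (by simp [full]; omega)]
    rfl
  | n + 1, d, h, u => by
    have hd : d < r := by omega
    rw [List.drop_eq_getElem_cons (by simpa using hd), List.foldr_cons]
    have h1 : (List.finRange r)[d]'(by simpa using hd) = ⟨d, hd⟩ := by simp
    rw [h1]
    simp only [fpm, G]
    rw [← (enum_cl e).expect]
    congr 1
    refine Finset.expect_congr rfl fun v _ => ?_
    rw [fold_eq s Wf n (d + 1) (by omega), take_full e u v ⟨d, hd⟩]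
    rfl

theorem expect_first (φ : (L → Fin (a + 1)) → ℝ) :
    𝔼 u : L → Fin (r + 1) → Fin (a + 1), φ (fun ω => u ω 0) = 𝔼 v, φ v := by
  let E : (L → Fin (a + 1)) × (L → Fin r → Fin (a + 1)) ≃ (L → Fin (r + 1) → Fin (a + 1)) :=
    { toFun := fun p ω => Fin.cons (p.1 ω) (p.2 ω)
      invFun := fun u => (fun ω => u ω 0, fun ω => Fin.tail (u ω))
      left_inv := fun p => by simp
      right_inv := fun u => by simp }
  rw [← Fintype.expect_equiv E (fun p => φ p.1) _ fun p => by simp [E], ← univ_product_univ,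
    expect_product]
  simp

theorem mixW_eq {W : (L → Bool) → ℝ} {Wq : List Bool → ℚ}
    (hW : ∀ τ, W τ = Wq (List.ofFn fun i => τ (e i))) {π : (Fin (r + 1) → Fin (a + 1)) → ℝ}
    {P : List ℚ} (hP : ∀ x, π x = tb P (List.ofFn fun i => (x i).val))
    (u : L → Fin (r + 1) → Fin (a + 1)) :
    mixW W (fun ω => π (u ω)) = mix l Wq fun i => colp P (full e u) i := by
  unfold mixW mix
  push_cast
  rw [List.map_map, ← (enum_bits l).equiv (e.symm.arrowCongr (Equiv.refl _))]
  refine sum_congr rfl fun τ _ => ?_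
  simp only [Function.comp, Rat.cast_mul, Rat.cast_list_prod, List.map_map]
  rw [hW, prod_map_range, ← e.prod_comp]
  congr 1
  refine prod_congr rfl fun i _ => ?_
  have h1 : colp P (full e u) i = tb P (List.ofFn fun j => (u (e i) j).val) := by
    unfold colp full
    rw [List.map_ofFn]
    congr 2
    funext j
    exact getD_ofFn _ i 0
  simp only [Function.comp, getD_ofFn, h1, hP, Equiv.arrowCongr_apply, Equiv.coe_refl, id,
    Equiv.symm_symm]
  cases τ (e i) <;> simp

theorem UV_eq (s : ℕ) {W : (L → Bool) → ℝ} {Wq : List Bool → ℚ}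
    (hW : ∀ τ, W τ = Wq (List.ofFn fun i => τ (e i))) {π : (Fin (r + 1) → Fin (a + 1)) → ℝ}
    {P : List ℚ} (hP : ∀ x, π x = tb P (List.ofFn fun i => (x i).val)) :
    UV (gridm s r) π W = avgR (lay a l) fun x => Real.log
      (G (lay a l) (fun pre => (mix l Wq fun i => colp P pre i : ℚ)) (s + r + 1) r (s + 1) [x]) := by
  rw [← (enum_cl e).expect, ← expect_first (r := r)]
  unfold UV fpms
  refine Finset.expect_congr rfl fun u _ => ?_
  simp only [mixW_eq e hW hP]
  have := fold_eq e s (fun pre => (mix l Wq fun i => colp P pre i : ℚ)) r 0 (by omega) u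
  rw [List.drop_zero] at this
  rw [this]
  simp [full, List.ofFn_succ]

theorem mix_mem {W : (L → Bool) → ℝ} {Wq : List Bool → ℚ}
    (hW : ∀ τ, W τ = Wq (List.ofFn fun i => τ (e i))) {π : (Fin (r + 1) → Fin (a + 1)) → ℝ}
    {P : List ℚ} (hP : ∀ x, π x = tb P (List.ofFn fun i => (x i).val))
    (hπ : ∀ x, 0 ≤ π x ∧ π x ≤ 1) {lo hi : ℝ} (hb : ∀ τ, lo ≤ W τ ∧ W τ ≤ hi) :
    ∀ pre ∈ allL (lay a l) (r + 1), lo ≤ (mix l Wq fun i => colp P pre i : ℚ) ∧
      (mix l Wq fun i => colp P pre i : ℚ) ≤ hi := by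
  intro pre hp
  obtain ⟨u, rfl⟩ := (enum_full e).surj hp
  rw [← mixW_eq e hW hP]
  exact mixW_mem (fun ω => hπ _) hb

end

theorem E_eq_expect {α : Type} [Fintype α] (p : PV α) (h : ∀ a b, p.w a = p.w b) (f : α → ℝ) :
    p.E f = 𝔼 a, f a := by
  rcases isEmpty_or_nonempty α with h0 | ⟨⟨a₀⟩⟩
  · simp [PV.E]
  have h1 : (Fintype.card α : ℝ) * p.w a₀ = 1 := by
    rw [← p.sum_one, sum_congr rfl fun a _ => h a a₀]
    simp
  have h2 : (Fintype.card α : ℝ) ≠ 0 := left_ne_zero_of_mul_eq_one h1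
  rw [Fintype.expect_eq_sum_div_card, PV.E, sum_congr rfl fun a _ => by rw [h a a₀], ← mul_sum,
    eq_div_iff h2]
  linear_combination (∑ a, f a) * h1

section sat
variable {q : ℚ} (hq : 0 < (q : ℝ) ∧ (q : ℝ) < 1)

theorem w_eq (θ : (satFM q hq).Θ) (s : Fin 3 → Bool) {f' s' : List Bool}
    (hf : ∀ i : Fin 3, f'.getD i false = θ.2 i) (hs : ∀ i : Fin 3, s'.getD i false = s i) :
    (satFM q hq).w θ s = wq q f' s' := by
  unfold wq
  push_cast
  rw [List.map_map, prod_map_range]
  simp only [Function.comp, hf, hs]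
  change 1 - (1 - (q : ℝ)) * ∏ i, (if s i = θ.2 i then (0 : ℝ) else 1) = _
  congr 2
  refine prod_congr rfl fun i _ => ?_
  generalize θ.2 i = b
  revert b
  change ∀ b : Bool, _
  intro b
  cases s i <;> cases b <;> simp

theorem w_mem (θ : (satFM q hq).Θ) (s : Fin 3 → Bool) :
    (q : ℝ) ≤ (satFM q hq).w θ s ∧ (satFM q hq).w θ s ≤ 1 := by
  have h1 : 0 ≤ ∏ i, (if s i = θ.2 i then (0 : ℝ) else 1) :=
    prod_nonneg fun i _ => by split_ifs <;> norm_num
  have h2 : ∏ i, (if s i = θ.2 i then (0 : ℝ) else 1) ≤ 1 :=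
    prod_le_one (fun i _ => by split_ifs <;> norm_num) fun i _ => by split_ifs <;> norm_num
  have h3 : (satFM q hq).w θ s = 1 - (1 - (q : ℝ)) * ∏ i, (if s i = θ.2 i then (0 : ℝ) else 1) :=
    rfl
  rw [h3]
  constructor <;> nlinarith [hq.1, hq.2]

theorem hw_eq (h : (satFM q hq).H) (b : Bool) : (satFM q hq).hw h b = 1 := by
  change Real.exp (0 * _) = 1
  simp

theorem siteW_mem {k : ℕ} (h : (satFM q hq).H) (θ : Fin k → (satFM q hq).Θ)
    (τ : Fin k × Fin (3 - 1) → Bool) :
    (q : ℝ) ^ k ≤ (satFM q hq).siteW h θ τ ∧ (satFM q hq).siteW h θ τ ≤ 2 := by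
  have key : ∀ s : Fin k → Fin 3 → Bool, (q : ℝ) ^ k ≤ ∏ j, (satFM q hq).w (θ j) (s j) ∧
      ∏ j, (satFM q hq).w (θ j) (s j) ≤ 1 := fun s =>
    ⟨by simpa using prod_le_prod (s := univ) (f := fun _ : Fin k => (q : ℝ)) (fun _ _ => hq.1.le)
          fun j _ => (w_mem hq (θ j) (s j)).1,
      prod_le_one (fun j _ => hq.1.le.trans (w_mem hq _ _).1) fun j _ => (w_mem hq _ _).2⟩
  unfold FM.siteW
  simp only [hw_eq, one_mul, Fintype.sum_bool]
  have h0 : 0 ≤ (q : ℝ) ^ k := pow_nonneg hq.1.le _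
  have h1 := key fun j l => if hl : l.val < 3 - 1 then τ (j, ⟨l.val, hl⟩) else true
  have h2 := key fun j l => if hl : l.val < 3 - 1 then τ (j, ⟨l.val, hl⟩) else false
  constructor <;> linarith [h1.1, h1.2, h2.1, h2.2]

theorem enum_Θ : Enum (fun t : (satFM q hq).Θ => List.ofFn (α := Bool) t.2) (bits 3) :=
  (enum_bits 3).equiv (Equiv.uniqueProd (Fin 3 → Bool) Unit)

/-- enumeration of the labels of a site -/
def eS (k : ℕ) : Fin (2 * k) ≃ Fin k × Fin (3 - 1) :=
  (finCongr (Nat.mul_comm 2 k)).trans finProdFinEquiv.symm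

theorem getD_eS {k : ℕ} (τ : Fin k × Fin (3 - 1) → Bool) (j : Fin k) (i : Fin (3 - 1)) :
    (List.ofFn fun x => τ (eS k x)).getD (2 * j + i) false = τ (j, i) := by
  have h := getD_ofFn (fun x => τ (eS k x)) ((eS k).symm (j, i)) false
  rw [Equiv.apply_symm_apply] at h
  rw [← h]
  congr 1
  simp [eS, add_comm]

theorem siteW_eq {k : ℕ} (h : (satFM q hq).H) (θ : Fin k → (satFM q hq).Θ)
    (τ : Fin k × Fin (3 - 1) → Bool) :
    (satFM q hq).siteW h θ τ = siteq q (List.ofFn fun j => List.ofFn (α := Bool) (θ j).2)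
      (List.ofFn fun x => τ (eS k x)) := by
  unfold FM.siteW siteq
  simp only [hw_eq, one_mul, List.length_ofFn]
  push_cast
  rw [List.map_map, ← enum_bool]
  refine sum_congr rfl fun ε _ => ?_
  simp only [Function.comp, Rat.cast_list_prod, List.map_map]
  rw [prod_map_range]
  refine prod_congr rfl fun j _ => ?_
  simp only [Function.comp]
  refine w_eq hq _ _ (fun i => ?_) fun i => ?_
  · rw [getD_ofFn, getD_ofFn]
  · have h0 := getD_eS τ j ⟨0, by norm_num⟩
    have h1 := getD_eS τ j ⟨1, by norm_num⟩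
    fin_cases i
    · exact h0
    · exact h1
    · rfl

variable (s : ℕ) {r a : ℕ} {π : (Fin (r + 1) → Fin (a + 1)) → ℝ} {P : List ℚ}
  (hP : ∀ x, π x = tb P (List.ofFn fun i => (x i).val))

/-- value of a site with `k` clauses -/
noncomputable def fk (π : (Fin (r + 1) → Fin (a + 1)) → ℝ) (k : ℕ) : ℝ :=
  ((satFM q hq).pΘ.pi (Fin k)).E fun θ => (satFM q hq).pH.E fun h =>
    UV (gridm s r) π ((satFM q hq).siteW h θ)

/-- value of an edge -/
noncomputable def ge (π : (Fin (r + 1) → Fin (a + 1)) → ℝ) : ℝ :=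
  (satFM q hq).pΘ.E fun θ => UV (gridm s r) π ((satFM q hq).w θ)

include hP in
theorem fk_eq (k : ℕ) : fk hq s π k = avgR (allL (bits 3) k) fun θ => avgR (lay a (2 * k)) fun x =>
    Real.log (G (lay a (2 * k)) (fun pre => (Wsite q P θ pre : ℚ)) (s + r + 1) r (s + 1) [x]) := by
  rw [← ((enum_Θ hq).pi k).expect, fk, E_eq_expect _ fun _ _ => rfl]
  refine Finset.expect_congr rfl fun θ _ => ?_
  simp only [fun h => UV_eq (eS k) s (siteW_eq hq h θ) hP, PV.E_const, Wsite, List.length_ofFn]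

include hP in
theorem ge_eq : ge hq s π = avgR (bits 3) fun f => avgR (lay a 3) fun x =>
    Real.log (G (lay a 3) (fun pre => (Wedge q P f pre : ℚ)) (s + r + 1) r (s + 1) [x]) := by
  rw [← (enum_Θ hq).expect, ge, E_eq_expect _ fun _ _ => rfl]
  refine Finset.expect_congr rfl fun θ _ => ?_
  exact UV_eq (Equiv.refl _) s (Wq := fun τ => wq q (List.ofFn (α := Bool) θ.2) τ)
    (fun τ => w_eq hq θ τ (fun i => getD_ofFn _ i _) fun i => getD_ofFn _ i _) hP

include hq hP in
theorem Wsite_mem (hπ : ∀ x, 0 ≤ π x ∧ π x ≤ 1) {k : ℕ} {θ : List (List Bool)}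
    (hθ : θ ∈ allL (bits 3) k) : ∀ pre ∈ allL (lay a (2 * k)) (r + 1),
      (q : ℝ) ^ k ≤ Wsite q P θ pre ∧ (Wsite q P θ pre : ℝ) ≤ 2 := by
  obtain ⟨θ, rfl⟩ := ((enum_Θ hq).pi k).surj hθ
  simp only [Wsite, List.length_ofFn]
  exact mix_mem (eS k) (siteW_eq hq () θ) hP hπ (siteW_mem hq () θ)

include hq hP in
theorem Wedge_mem (hπ : ∀ x, 0 ≤ π x ∧ π x ≤ 1) {f : List Bool}
    (hf : f ∈ bits 3) : ∀ pre ∈ allL (lay a 3) (r + 1),
      (q : ℝ) ≤ Wedge q P f pre ∧ (Wedge q P f pre : ℝ) ≤ 1 := by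
  obtain ⟨θ, rfl⟩ := (enum_Θ hq).surj hf
  exact mix_mem (Equiv.refl _) (Wq := fun τ => wq q (List.ofFn (α := Bool) θ.2) τ)
    (fun τ => w_eq hq θ τ (fun i => getD_ofFn _ i _) fun i => getD_ofFn _ i _) hP hπ (w_mem hq θ)

end sat

end Crest.Agent.R153.CompB
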